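import Vale.Agent.P040.H251.SelInst
import Vale.Agent.P040.H587.Robust

/-!
P040, both odd: definitions for the exclusion of the triple ties (helper568).

A configuration `c` (two non-crossing matchings of points of the circle `L_0`), `col x = true` for
the `+` points.  The oriented curve leaves a `+` point on the page `true`, and a `-` point on the
page `false`.  `lam b x` is the number of cut leaves (marks) on the chord at `x` on page `b`,
`lab x` the arc (of the three arcs between the marks) containing `x`, `wl` the position of the leaf
`w` on `L_0` (between the points with `wl = true` and those with `wl = false`).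
-/

namespace Vale.Agent.P040.H568

open Vale.Agent.P040.H906 P040H251 Vale.Agent.P040.H587

variable {W : Type*} [LinearOrder W]

/-- `1` if `w` lies on the forward arc from `x` to `y`, else `0` (for `x ≠ y`) -/
def wn (wl : W → Bool) (x y : W) : ℕ :=
  if x < y then (if wl x = true ∧ wl y = false then 1 else 0)
  else (if wl y = true ∧ wl x = false then 0 else 1)

/-- the parity law at the centre, with the bookkeeping of the marks -/
structure Law (c : Cfg W) (col : W → Bool) (E₀ : W → ℝ) (M₀ : ℝ) (lam : Bool → W → ℕ)
    (lab : W → ZMod 3) (wl : W → Bool) : Prop where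
  cut : ∀ x y, x ≤ y → wl y = true → wl x = true
  sym : ∀ b, ∀ x ∈ c.S, lam b (c.f b x) = lam b x
  par : ∀ b, ∀ x ∈ c.S, ∃ n : ℤ,
    2 * (M₀ + c.dl E₀ b x) = (lam b x : ℝ) + (wn wl x (c.f b x) : ℝ) + 2 * (n : ℝ)
  lab : ∀ b, ∀ x ∈ c.S, col x = b → lab (c.f b x) = lab x + (lam b x : ZMod 3)
  tot : ∑ x ∈ c.S.filter (fun x => col x = true), (lam true x + lam false x) ≤ 3

/-- the marks after deletion of the chord at `x` on page `b`: they are carried to the new chord -/
def dlam (c : Cfg W) (lam : Bool → W → ℕ) (b : Bool) (x : W) : Bool → W → ℕ := fun b' y =>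
  if b' = b then lam b' y
  else if y = c.f (!b) x ∨ y = c.f (!b) (c.f b x) then
    lam (!b) x + lam b x + lam (!b) (c.f b x)
  else lam b' y

/-- raising the value at one point -/
def bump (E : W → ℝ) (p : W) (s : ℝ) : W → ℝ := fun x => if x = p then E x + s else E x

/-- `p` is pivotal: raising `E p` alone raises the selector -/
def Piv (c : Cfg W) (col : W → Bool) (E : W → ℝ) (p : W) : Prop :=
  ∃ s₀ : ℝ, 0 < s₀ ∧ ∀ s, 0 < s → s ≤ s₀ → vt col c E < vt col c (bump E p s)

end Vale.Agent.P040.H568
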