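import Vale.Agent.P040.H568.TripodDef
import Vale.Agent.P040.H688.Ind

/-!
P040, both odd (helper568): the selector near a robust potential: local deletion of a chord of
largest variation.
-/

namespace Vale.Agent.P040.H568

open Vale.Agent.P040.H906 P040H251 Vale.Agent.P040.H688

variable {W : Type*} [LinearOrder W]

/-- variation of `E` along the chord at `x` on page `b` -/
def ab (c : Cfg W) (E : W → ℝ) (b : Bool) (x : W) : ℝ := |E (c.f b x) - E x|

theorem ab_eq (c : Cfg W) (E : W → ℝ) (b : Bool) (x : W) : ab c E b x = |c.dl E b x| := by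
  unfold ab Cfg.dl
  cases b <;> simp [sg, abs_sub_comm]

theorem ab_symm {c : Cfg W} (hg : c.Good) (E : W → ℝ) (b : Bool) {x : W} (hx : x ∈ c.S) :
    ab c E b (c.f b x) = ab c E b x := by
  unfold ab
  rw [hg.inv b x hx, abs_sub_comm]

theorem del_symm {c : Cfg W} (hg : c.Good) {b : Bool} {x : W} (hx : x ∈ c.S) :
    c.del b (c.f b x) = c.del b x := by
  have e : c.f b (c.f b x) = x := hg.inv b x hx
  have hne := hg.ne b x hx
  have h1 : (c.del b (c.f b x)).S = (c.del b x).S := by
    simp only [Cfg.del, e]
    exact Finset.erase_right_comm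
  have h2 : (c.del b (c.f b x)).f = (c.del b x).f := by
    funext b' y
    simp only [Cfg.del, e]
    by_cases h : b' = b
    · simp [h]
    · simp only [h, if_false]
      by_cases h3 : c.f b' y = x
      · rw [if_neg (by rw [h3]; exact hne.symm), if_pos h3, if_pos h3]
      · by_cases h4 : c.f b' y = c.f b x
        · rw [if_pos h4, if_neg h3, if_pos h4]
        · rw [if_neg h4, if_neg h3, if_neg h3, if_neg h4]
  cases hA : c.del b (c.f b x)
  cases hB : c.del b x
  rw [hA, hB] at h1 h2
  simp only at h1 h2
  rw [h1, h2]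

/-- `q` immediately precedes two different points: impossible -/
theorem two_after {c : Cfg W} (hg : c.Good) (hc : 2 < c.S.card) {b : Bool} {q : W} (hq : q ∈ c.S)
    (h1 : c.Leaf b q) (h2 : c.Leaf (!b) q) : False := by
  have hne := hg.ne_other hc b hq
  have k1 := h1.2 _ (hg.mem (!b) q hq)
  have k2 := h2.2 _ (hg.mem b q hq)
  have k3 := hg.ne b q hq
  have k4 := hg.ne (!b) q hq
  unfold Cyc at k1 k2
  grind

theorem two_before {c : Cfg W} (hg : c.Good) (hc : 2 < c.S.card) {b : Bool} {q : W} (hq : q ∈ c.S)
    (h1 : c.Leaf b (c.f b q)) (h2 : c.Leaf (!b) (c.f (!b) q)) : False := by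
  have hne := hg.ne_other hc b hq
  have k1 := h1.2 _ (hg.mem (!b) q hq)
  have k2 := h2.2 _ (hg.mem b q hq)
  have k3 := hg.ne b q hq
  have k4 := hg.ne (!b) q hq
  rw [hg.inv b q hq] at k1
  rw [hg.inv (!b) q hq] at k2
  unfold Cyc at k1 k2
  grind

theorem leaf_both {c : Cfg W} (hg : c.Good) (hc : 2 < c.S.card) {b : Bool} {q : W} (hq : q ∈ c.S)
    (h1 : c.Leaf b q) (h2 : c.Leaf b (c.f b q)) : False := by
  have hne := hg.ne_other hc b hq
  have k1 := h1.2 _ (hg.mem (!b) q hq)
  have k2 := h2.2 _ (hg.mem (!b) q hq)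
  have k3 := hg.ne b q hq
  have k4 := hg.ne (!b) q hq
  rw [hg.inv b q hq] at k2
  unfold Cyc at k1 k2
  grind

/-- minimal chords are leaves -/
def ML (c : Cfg W) (E : W → ℝ) : Prop :=
  ∀ b, ∀ x ∈ c.S, (∀ b', ∀ y ∈ c.S, c.dl E b x ≤ c.dl E b' y) → c.Leaf b x

section
variable {c : Cfg W} {col : W → Bool} {E : W → ℝ} {b : Bool} {q : W}

theorem dl_ge_ab (hmax : ∀ b', ∀ y ∈ c.S, ab c E b' y ≤ ab c E b q) (b' : Bool) {y : W}
    (hy : y ∈ c.S) : -(ab c E b q) ≤ c.dl E b' y := by
  have := hmax b' y hy
  rw [ab_eq c E b' y] at this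
  have := neg_abs_le (c.dl E b' y)
  linarith

theorem ab_pos (hg : c.Good) (hc : 2 < c.S.card) (hML : ML c E) (hq : q ∈ c.S)
    (hmax : ∀ b', ∀ y ∈ c.S, ab c E b' y ≤ ab c E b q) : 0 < ab c E b q := by
  rcases (abs_nonneg (E (c.f b q) - E q)).lt_or_eq with h | h
  · exact h
  · exfalso
    have h0 : ab c E b q = 0 := h.symm
    have hz : ∀ b', ∀ y ∈ c.S, c.dl E b' y = 0 := by
      intro b' y hy
      have h1 := hmax b' y hy
      rw [h0, ab_eq] at h1
      exact abs_eq_zero.1 (le_antisymm h1 (abs_nonneg _))
    have hl : ∀ x ∈ c.S, c.Leaf b x := by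
      intro x hx
      refine hML b x hx fun b' y hy => ?_
      rw [hz b x hx, hz b' y hy]
    exact leaf_both hg hc hq (hl q hq) (hl _ (hg.mem b q hq))

/-- sign of the variation towards `q` -/
theorem sign_other (hg : c.Good) (hc : 2 < c.S.card) (hML : ML c E) (hq : q ∈ c.S)
    (hmax : ∀ b', ∀ y ∈ c.S, ab c E b' y ≤ ab c E b q) {s : ℝ} (hs : s = 1 ∨ s = -1)
    (h1 : E (c.f b q) - E q = s * ab c E b q) (h2 : ab c E (!b) q = ab c E b q) :
    E (c.f (!b) q) - E q = s * ab c E b q := by
  have hpos := ab_pos hg hc hML hq hmax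
  set μ := ab c E b q with hμ
  have h3 : E (c.f (!b) q) - E q = s * μ ∨ E (c.f (!b) q) - E q = -(s * μ) := by
    have h4 : |E (c.f (!b) q) - E q| = μ := h2
    rcases hs with rfl | rfl
    · rcases abs_choice (E (c.f (!b) q) - E q) with h5 | h5 <;> rw [h5] at h4
      · left; linarith
      · right; linarith
    · rcases abs_choice (E (c.f (!b) q) - E q) with h5 | h5 <;> rw [h5] at h4
      · right; linarith
      · left; linarith
  rcases h3 with h3 | h3
  · exact h3
  · exfalso
    have hge := fun (b' : Bool) (y : W) (hy : y ∈ c.S) => dl_ge_ab hmax b' hy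
    have e1 : c.dl E b q = sg b * (s * μ) := by unfold Cfg.dl; rw [h1]
    have e2 : c.dl E (!b) q = sg b * (s * μ) := by
      unfold Cfg.dl; rw [h3, sg_not]; ring
    have e3 : c.dl E b (c.f b q) = -(sg b * (s * μ)) := by rw [Cfg.dl_inv hg hq, e1]
    have e4 : c.dl E (!b) (c.f (!b) q) = -(sg b * (s * μ)) := by rw [Cfg.dl_inv hg hq, e2]
    have h4 : sg b * (s * μ) = μ ∨ sg b * (s * μ) = -μ := by
      rcases hs with rfl | rfl <;> cases b <;> simp [sg]
    rcases h4 with h4 | h4
    · refine two_before hg hc hq (b := b) (hML _ _ (hg.mem b q hq) ?_)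
        (hML _ _ (hg.mem (!b) q hq) ?_)
      · intro b' y hy; rw [e3, h4]; exact hge b' y hy
      · intro b' y hy; rw [e4, h4]; exact hge b' y hy
    · refine two_after hg hc hq (b := b) (hML _ _ hq ?_) (hML _ _ hq ?_)
      · intro b' y hy; rw [e1, h4]; exact hge b' y hy
      · intro b' y hy; rw [e2, h4]; exact hge b' y hy

/-- the `-` point `q` of a chord of largest variation: near `E` (changes at `+` points only) the
selector is that of the configuration without the chord -/
theorem loc (hg : c.Good) (hcol : ColOK col c) (hR : Rob c E) (hML : ML c E) (hc : 2 < c.S.card)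
    (hq : q ∈ c.S) (hcq : col q = false)
    (hmax : ∀ b', ∀ y ∈ c.S, ab c E b' y ≤ ab c E b q) :
    ∃ η > 0, ∀ E' : W → ℝ, (∀ y ∈ c.S, col y = true → |E' y - E y| ≤ η) →
      (∀ y ∈ c.S, col y = false → E' y = E y) →
      (ab c E (!b) q = ab c E b q → ab c E' (!b) q ≤ ab c E' b q) →
      vt col c E' = vt col (c.del b q) E' := by
  have hpos := ab_pos hg hc hML hq hmax
  obtain ⟨ε, hε, hRob⟩ := hR
  set p := c.f b q with hp
  set r := c.f (!b) q with hr
  have hpS : p ∈ c.S := hg.mem b q hq
  have hrS : r ∈ c.S := hg.mem (!b) q hq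
  have hpq : p ≠ q := hg.ne b q hq
  have hrq : r ≠ q := hg.ne (!b) q hq
  have hcp : col p = true := by rw [hp, hcol b q hq, hcq]; rfl
  have hcr : col r = true := by rw [hr, hcol (!b) q hq, hcq]; rfl
  set μ := ab c E b q with hμ
  -- the sign
  obtain ⟨s, hs, hs1⟩ : ∃ s : ℝ, (s = 1 ∨ s = -1) ∧ E p - E q = s * μ := by
    rcases abs_choice (E p - E q) with h5 | h5
    · exact ⟨1, Or.inl rfl, by rw [one_mul]; exact h5.symm⟩
    · refine ⟨-1, Or.inr rfl, ?_⟩
      have : μ = -(E p - E q) := h5
      linarith
  have hs2 : s * s = 1 := by rcases hs with rfl | rfl <;> norm_num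
  have hsabs : |s| = 1 := by rcases hs with rfl | rfl <;> simp
  -- the gap at the other chord
  obtain ⟨g, hg0, hgap⟩ : ∃ g : ℝ, 0 < g ∧ (ab c E (!b) q ≠ μ → ab c E (!b) q ≤ μ - g) := by
    rcases (hmax (!b) q hq).lt_or_eq with h | h
    · exact ⟨μ - ab c E (!b) q, by linarith, fun _ => by linarith⟩
    · exact ⟨1, one_pos, fun h' => absurd h h'⟩
  have hother : ab c E (!b) q = μ → E r - E q = s * μ := fun h =>
    sign_other hg hc hML hq hmax hs hs1 h
  refine ⟨min (min (ε / 2) (g / 2)) (μ / 2), by positivity, ?_⟩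
  intro E' hE1 hE2 hcond
  set η := min (min (ε / 2) (g / 2)) (μ / 2) with hη
  have hη0 : 0 < η := by positivity
  have hη1 : η ≤ ε / 2 := (min_le_left _ _).trans (min_le_left _ _)
  have hη2 : η ≤ g / 2 := (min_le_left _ _).trans (min_le_right _ _)
  have hη3 : η ≤ μ / 2 := min_le_right _ _
  have hEq : E' q = E q := hE2 q hq hcq
  -- the leaf
  obtain ⟨x, hxS, hx, hdx, hdx'⟩ : ∃ x ∈ c.S, (x = q ∨ x = p) ∧ c.dl E b x = -μ ∧
      ∀ F : W → ℝ, c.dl F b x = -(s * (F p - F q)) := by
    have h4 : sg b * s = 1 ∨ sg b * s = -1 := by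
      rcases hs with rfl | rfl <;> cases b <;> simp [sg]
    have hsg : sg b * sg b = 1 := sg_sq b
    rcases h4 with h4 | h4
    · have hsb : sg b = s := by
        have : sg b * (s * s) = s := by rw [← mul_assoc, h4, one_mul]
        rw [hs2, mul_one] at this; exact this
      refine ⟨p, hpS, Or.inr rfl, ?_, ?_⟩
      · rw [hp, Cfg.dl_inv hg hq]; unfold Cfg.dl
        rw [← hp, hs1, hsb, ← mul_assoc, hs2, one_mul]
      · intro F
        rw [hp, Cfg.dl_inv hg hq]; unfold Cfg.dl
        rw [← hp, hsb]
    · have hsb : sg b = -s := by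
        have : sg b * (s * s) = -s := by rw [← mul_assoc, h4]; ring
        rw [hs2, mul_one] at this; exact this
      refine ⟨q, hq, Or.inl rfl, ?_, ?_⟩
      · unfold Cfg.dl
        rw [← hp, hs1, hsb]
        have : -s * (s * μ) = -(s * s) * μ := by ring
        rw [this, hs2]; ring
      · intro F; unfold Cfg.dl
        rw [← hp, hsb]; ring
  have hdel : c.del b x = c.del b q := by
    rcases hx with rfl | rfl
    · rfl
    · exact del_symm hg hq
  have hleaf : c.Leaf b x := hML b x hxS fun b' y hy => by rw [hdx]; exact dl_ge_ab hmax b' hy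
  -- the modified potential
  set E'' : W → ℝ := fun y => if y = q then E q - s * ε else E' y with hE''
  have hE''q : E'' q = E q - s * ε := by simp [hE'']
  have hE''n : ∀ y, y ≠ q → E'' y = E' y := fun y hy => by simp [hE'', hy]
  have hE'near : ∀ y ∈ c.S, |E' y - E y| ≤ η := by
    intro y hy
    rcases hcy : col y with _ | _
    · rw [hE2 y hy hcy]; simpa using hη0.le
    · exact hE1 y hy hcy
  obtain ⟨M'', hM''⟩ := hRob E'' (by
    intro y hy
    by_cases h : y = q
    · rw [h, hE''q]
      have : E q - s * ε - E q = -(s * ε) := by ring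
      rw [this, abs_neg, abs_mul, hsabs, one_mul, abs_of_pos hε]
    · rw [hE''n y h]
      exact (hE'near y hy).trans (by linarith))
  obtain ⟨M', hM'⟩ := hRob E' (fun y hy => (hE'near y hy).trans (by linarith))
  have hp' := abs_le.1 (hE1 p hpS hcp)
  have hr' := abs_le.1 (hE1 r hrS hcr)
  have hA : c.dl E'' b x = -(s * (E' p - E q) + ε) := by
    rw [hdx' E'', hE''q, hE''n p hpq]
    have : s * (E' p - (E q - s * ε)) = s * (E' p - E q) + (s * s) * ε := by ring
    rw [this, hs2, one_mul]
  have hA1 : μ - η ≤ s * (E' p - E q) := by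
    have e : s * (E' p - E q) = s * (E' p - E p) + (s * s) * μ := by
      have : E' p - E q = (E' p - E p) + s * μ := by linarith
      rw [this]; ring
    rw [e, hs2]
    rcases hs with rfl | rfl <;> linarith [hp'.1, hp'.2]
  have hmin : ∀ b', ∀ y ∈ c.S, c.dl E'' b x ≤ c.dl E'' b' y := by
    -- bound of the variation along every chord
    have key : ∀ b', ∀ y ∈ c.S, |E'' (c.f b' y) - E'' y| ≤ s * (E' p - E q) + ε := by
      -- chords at `q`
      have atq : ∀ b', |E'' (c.f b' q) - E'' q| ≤ s * (E' p - E q) + ε := by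
        intro b'
        rcases Cfg.bool_cases b b' with rfl | rfl
        · rw [← hp, hE''n p hpq, hE''q]
          have e : E' p - (E q - s * ε) = s * (s * (E' p - E q) + ε) := by
            have : s * (s * (E' p - E q) + ε) = (s * s) * (E' p - E q) + s * ε := by ring
            rw [this, hs2]; ring
          rw [e, abs_mul, hsabs, one_mul, abs_of_nonneg (by linarith)]
        · rw [← hr, hE''n r hrq, hE''q]
          have e : E' r - (E q - s * ε) = s * (s * (E' r - E q) + ε) := by
            have : s * (s * (E' r - E q) + ε) = (s * s) * (E' r - E q) + s * ε := by ring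
            rw [this, hs2]; ring
          rw [e, abs_mul, hsabs, one_mul]
          by_cases h : ab c E (!b) q = μ
          · have h1 := hother h
            have h2 := hcond h
            have hB1 : μ - η ≤ s * (E' r - E q) := by
              have e : s * (E' r - E q) = s * (E' r - E r) + (s * s) * μ := by
                have : E' r - E q = (E' r - E r) + s * μ := by linarith
                rw [this]; ring
              rw [e, hs2]
              rcases hs with rfl | rfl <;> linarith [hr'.1, hr'.2]
            unfold ab at h2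
            rw [← hr, ← hp, hEq] at h2
            have k1 : |E' r - E q| = s * (E' r - E q) := by
              rw [← abs_of_nonneg (show (0:ℝ) ≤ s * (E' r - E q) by linarith), abs_mul, hsabs,
                one_mul]
            have k2 : |E' p - E q| = s * (E' p - E q) := by
              rw [← abs_of_nonneg (show (0:ℝ) ≤ s * (E' p - E q) by linarith), abs_mul, hsabs,
                one_mul]
            rw [k1, k2] at h2
            rw [abs_of_nonneg (by linarith)]
            linarith
          · have h1 := hgap h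
            unfold ab at h1
            rw [← hr] at h1
            have h2 := abs_le.1 h1
            have h3 : |s * (E' r - E q) + ε| ≤ |E' r - E q| + ε := by
              refine (abs_add_le _ _).trans ?_
              rw [abs_mul, hsabs, one_mul, abs_of_pos hε]
            have h4 : |E' r - E q| ≤ μ - g + η := by
              rw [abs_le]
              constructor <;> linarith [h2.1, h2.2, hr'.1, hr'.2]
            linarith
      intro b' y hy
      by_cases h1 : y = q
      · rw [h1]; exact atq b'
      · by_cases h2 : c.f b' y = q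
        · have h3 : y = c.f b' q := by rw [← h2, hg.inv b' y hy]
          have := atq b'
          rw [← h3] at this
          rw [h2, abs_sub_comm]
          exact this
        · rw [hE''n _ h1, hE''n _ h2]
          have h3 := hmax b' y hy
          unfold ab at h3
          have h3' := abs_le.1 h3
          have hy' := hg.mem b' y hy
          rcases hcy : col y with _ | _
          · have hcy' : col (c.f b' y) = true := by rw [hcol b' y hy, hcy]; rfl
            have h4 := abs_le.1 (hE1 _ hy' hcy')
            rw [hE2 y hy hcy, abs_le]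
            constructor <;> linarith [h3'.1, h3'.2, h4.1, h4.2]
          · have hcy' : col (c.f b' y) = false := by rw [hcol b' y hy, hcy]; rfl
            have h4 := abs_le.1 (hE1 y hy hcy)
            rw [hE2 _ hy' hcy', abs_le]
            constructor <;> linarith [h3'.1, h3'.2, h4.1, h4.2]
    intro b' y hy
    have h1 := key b' y hy
    rw [hA]
    have h2 : |c.dl E'' b' y| = |E'' (c.f b' y) - E'' y| := (ab_eq c E'' b' y).symm
    rw [← h2] at h1
    have := neg_abs_le (c.dl E'' b' y)
    linarith
  have hvm := valid_min hg hM'' hxS hmin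
  have e1 : vt col c E' = vt col c E'' := vt_ind hg hcol hM' hM'' fun y hy hcy => by
    rw [hE''n y (by rintro rfl; rw [hcq] at hcy; exact Bool.noConfusion hcy)]
  have e2 : vt col (c.del b x) E'' = vt col c E'' :=
    vt_leaf hg hcol hvm hc hleaf (by ring)
  have hgd := Cfg.good_del hg hc hleaf
  have hvd := valid_dl hg hc hleaf hvm
  have e3 : vt col (c.del b x) E' = vt col (c.del b x) E'' := by
    refine vt_congr_val hgd (hcol.del hg b hxS) hvd fun y hy => ?_
    rw [hE''n y]
    rw [Cfg.mem_del] at hy
    rcases hx with rfl | rfl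
    · exact hy.2.1
    · rw [hg.inv b q hq] at hy
      exact hy.1
  rw [e1, ← e2, ← hdel, e3]

end

end Vale.Agent.P040.H568
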